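import Mathlib
import Vale.Agent.P087.Gap

/-!
# P087: sums over splittings of a word, gaps, substitution

`spl h w` sums `h a x c` over `w = a ++ x :: c`.  `sub N f` substitutes `x ↦ x N` in the series `f`.
-/

namespace VAgent.P087.Cum

noncomputable section

variable {α : Type*}

/-- Sum over the splittings `w = a ++ x :: c`. -/
def spl {A : Type*} [AddCommMonoid A] : (List α → α → List α → A) → List α → A
  | _, [] => 0
  | h, x :: r => h [] x r + spl (fun a => h (x :: a)) r

theorem sum_fin_eq_spl {A : Type*} [AddCommMonoid A] (w : List α) :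
    ∀ h : List α → α → List α → A,
      ∑ q : Fin w.length, h (w.take q) (w.get q) (w.drop (q + 1)) = spl h w := by
  induction w with
  | nil => intro h; simp [spl]
  | cons x r ih =>
    intro h
    simp only [spl, List.length_cons]
    rw [Fin.sum_univ_succ, ← ih]
    simp

theorem spl_congr {A : Type*} [AddCommMonoid A] :
    ∀ (w : List α) {h h' : List α → α → List α → A},
      (∀ a x c, w = a ++ x :: c → h a x c = h' a x c) → spl h w = spl h' w
  | [], _, _, _ => rfl
  | x :: r, h, h', H => by
    simp only [spl]
    rw [H [] x r rfl, spl_congr r fun a y c e => H (x :: a) y c (by rw [e]; rfl)]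

theorem spl_append {A : Type*} [AddCommMonoid A] :
    ∀ (l r : List α) (h : List α → α → List α → A),
      spl h (l ++ r) = spl (fun a x c => h a x (c ++ r)) l + spl (fun a => h (l ++ a)) r
  | [], r, h => by simp [spl]
  | x :: l, r, h => by
    simp only [List.cons_append, spl]
    rw [spl_append l r fun a => h (x :: a), add_assoc]

theorem spl_add {A : Type*} [AddCommMonoid A] :
    ∀ (w : List α) (h h' : List α → α → List α → A),
      spl (fun a x c => h a x c + h' a x c) w = spl h w + spl h' w
  | [], _, _ => by simp [spl]
  | x :: r, h, h' => by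
    simp only [spl]
    rw [spl_add r (fun a => h (x :: a)) fun a => h' (x :: a)]
    abel

theorem spl_zero {A : Type*} [AddCommMonoid A] :
    ∀ w : List α, spl (fun _ _ _ => (0 : A)) w = 0
  | [] => rfl
  | _ :: r => by simp [spl, spl_zero r]

theorem mul_spl :
    ∀ (w : List α) (k : ℂ) (h : List α → α → List α → ℂ),
      k * spl h w = spl (fun a x c => k * h a x c) w
  | [], k, h => by simp [spl]
  | x :: r, k, h => by simp only [spl, mul_add]; rw [mul_spl r k]

theorem spl_mul :
    ∀ (w : List α) (k : ℂ) (h : List α → α → List α → ℂ),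
      spl h w * k = spl (fun a x c => h a x c * k) w := by
  intro w k h
  rw [mul_comm, mul_spl]
  simp only [mul_comm k]

/-- Two ordered letters, chosen in either order. -/
theorem spl_comm {A : Type*} [AddCommMonoid A] :
    ∀ (w : List α) (Φ : List α → α → List α → α → List α → A),
      spl (fun a x c => spl (fun a' y c' => Φ a x a' y c') c) w =
        spl (fun b y c' => spl (fun a x a' => Φ a x a' y c') b) w
  | [], _ => rfl
  | z :: r, Φ => by
    simp only [spl]
    rw [spl_comm r fun a => Φ (z :: a), zero_add, spl_add]

theorem norm_spl_le :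
    ∀ (w : List α) (h : List α → α → List α → ℂ),
      ‖spl h w‖ ≤ spl (fun a x c => ‖h a x c‖) w
  | [], h => by simp [spl]
  | x :: r, h => by
    simp only [spl]
    exact (norm_add_le _ _).trans (add_le_add le_rfl (norm_spl_le r _))

theorem spl_le_spl :
    ∀ (w : List α) (h h' : List α → α → List α → ℝ),
      (∀ a x c, w = a ++ x :: c → h a x c ≤ h' a x c) → spl h w ≤ spl h' w
  | [], _, _, _ => le_refl _
  | x :: r, h, h', H => by
    simp only [spl]
    exact add_le_add (H [] x r rfl)
      (spl_le_spl r _ _ fun a y c e => H (x :: a) y c (by rw [e]; rfl))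

/-- A sum over splittings depending only on the lengths. -/
theorem spl_len :
    ∀ (w : List α) (φ : ℕ → ℕ → ℝ),
      spl (fun a _ c => φ a.length c.length) w =
        ∑ i ∈ Finset.range w.length, φ i (w.length - 1 - i)
  | [], φ => by simp [spl]
  | x :: r, φ => by
    simp only [spl, List.length_cons, List.length_nil]
    rw [spl_len r fun i j => φ (i + 1) j, Finset.sum_range_succ']
    simp only [Nat.add_sub_cancel, Nat.sub_zero]
    rw [add_comm]
    congr 1
    refine Finset.sum_congr rfl fun i _ => ?_
    congr 1
    omega

theorem len_of_split {w a c : List α} {x : α} (h : w = a ++ x :: c) :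
    a.length < w.length ∧ c.length < w.length := by
  subst h
  simp
  omega

theorem gapExp_eq (M F : List α → ℂ) (w : List α) :
    gapExp M F w = F [] * M w + spl (fun a x c => M a * gapExp M (fun S => F (x :: S)) c) w := by
  rw [gapExp]
  congr 1
  exact sum_fin_eq_spl w fun a x c => M a * gapExp M (fun S => F (x :: S)) c

theorem gapExp_congr (M : List α → ℂ) :
    ∀ (n : ℕ) (w : List α) (F F' : List α → ℂ), w.length ≤ n →
      (∀ S : List α, S.length ≤ n → F S = F' S) → gapExp M F w = gapExp M F' w := by
  intro n
  induction n with
  | zero =>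
    intro w F F' hw H
    obtain rfl : w = [] := List.length_eq_zero_iff.1 (by omega)
    rw [gapExp_eq, gapExp_eq, H [] (le_refl _)]
    simp [spl]
  | succ n ih =>
    intro w F F' hw H
    rw [gapExp_eq, gapExp_eq M F', H [] (by simp)]
    congr 1
    refine spl_congr w fun a x c e => ?_
    have := len_of_split e
    rw [ih c _ (fun S => F' (x :: S)) (by omega) fun S hS => H _ (by simp; omega)]

theorem gapExp_add (M : List α → ℂ) :
    ∀ (n : ℕ) (w : List α) (F F' : List α → ℂ), w.length ≤ n →
      gapExp M (fun S => F S + F' S) w = gapExp M F w + gapExp M F' w := by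
  intro n
  induction n with
  | zero =>
    intro w F F' hw
    obtain rfl : w = [] := List.length_eq_zero_iff.1 (by omega)
    rw [gapExp_eq, gapExp_eq M F, gapExp_eq M F']
    simp [spl]
    ring
  | succ n ih =>
    intro w F F' hw
    rw [gapExp_eq, gapExp_eq M F, gapExp_eq M F']
    rw [spl_congr w (h' := fun a x c => M a * gapExp M (fun S => F (x :: S)) c +
      M a * gapExp M (fun S => F' (x :: S)) c), spl_add]
    · ring
    · intro a x c e
      have := len_of_split e
      rw [ih c (fun S => F (x :: S)) (fun S => F' (x :: S)) (by omega)]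
      ring

theorem gapExp_smul (M : List α → ℂ) (k : ℂ) :
    ∀ (n : ℕ) (w : List α) (F : List α → ℂ), w.length ≤ n →
      gapExp M (fun S => k * F S) w = k * gapExp M F w := by
  intro n
  induction n with
  | zero =>
    intro w F hw
    obtain rfl : w = [] := List.length_eq_zero_iff.1 (by omega)
    rw [gapExp_eq, gapExp_eq M F]
    simp [spl]
    ring
  | succ n ih =>
    intro w F hw
    rw [gapExp_eq, gapExp_eq M F, mul_add, mul_spl]
    congr 1
    · ring
    · refine spl_congr w fun a x c e => ?_
      have := len_of_split e
      rw [ih c (fun S => F (x :: S)) (by omega)]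
      ring

/-- The top coefficient. -/
theorem gapExp_top (M : List α → ℂ) (hM : M [] = 1) :
    ∀ (w : List α) (F : List α → ℂ), (∀ S : List α, S.length < w.length → F S = 0) →
      gapExp M F w = F w
  | [], F, _ => by rw [gapExp_eq]; simp [spl, hM]
  | x :: r, F, H => by
    rw [gapExp_eq, H [] (by simp), zero_mul, zero_add]
    simp only [spl]
    rw [gapExp_top M hM r _ fun S hS => H _ (by simpa using hS), hM, one_mul]
    rw [spl_congr r (h' := fun _ _ _ => (0 : ℂ)), spl_zero, add_zero]
    intro a y c e
    have := len_of_split e
    rw [gapExp_congr M c.length c _ (fun _ => (0 : ℂ)) le_rfl fun S hS => H _ (by simp; omega)]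
    have h0 := gapExp_smul M 0 c.length c (fun _ => (0 : ℂ)) le_rfl
    simp only [zero_mul] at h0
    rw [h0, mul_zero]

/-- Expanding a product of two factors around a chosen letter. -/
theorem gapExp_split (M : List α → ℂ) :
    ∀ (n : ℕ) (w : List α) (φ ψ : α → List α → ℂ), w.length ≤ n →
      gapExp M (fun S => spl (fun a x c => φ x a * ψ x c) S) w =
        spl (fun a x c => gapExp M (φ x) a * gapExp M (ψ x) c) w := by
  intro n
  induction n with
  | zero =>
    intro w φ ψ hw
    obtain rfl : w = [] := List.length_eq_zero_iff.1 (by omega)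
    rw [gapExp_eq]
    simp [spl]
  | succ n ih =>
    intro w φ ψ hw
    rw [gapExp_eq]
    simp only [spl, zero_mul, zero_add]
    have hR : spl (fun a x c => gapExp M (φ x) a * gapExp M (ψ x) c) w =
        spl (fun a x c => φ x [] * M a * gapExp M (ψ x) c) w +
        spl (fun b y c' => spl (fun a x a' =>
          M a * (gapExp M (fun S => φ y (x :: S)) a' * gapExp M (ψ y) c')) b) w := by
      rw [← spl_add]
      refine spl_congr w fun a x c _ => ?_
      rw [gapExp_eq M (φ x) a, add_mul, spl_mul]
      simp only [mul_assoc]
    rw [hR, ← spl_comm, ← spl_add]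
    refine spl_congr w fun a x c e => ?_
    have := len_of_split e
    rw [gapExp_add M c.length c (fun S => φ x [] * ψ x S)
        (fun S => spl (fun a' y c' => φ y (x :: a') * ψ y c') S) le_rfl,
      gapExp_smul M _ c.length c _ le_rfl,
      ih c (fun y S => φ y (x :: S)) ψ (by omega), mul_add, mul_spl]
    congr 1
    ring

/-- Concatenation product. -/
def conv : (List α → ℂ) → (List α → ℂ) → List α → ℂ
  | f, h, [] => f [] * h []
  | f, h, x :: u => f [] * h (x :: u) + conv (fun a => f (x :: a)) h u

theorem conv_congr :
    ∀ (u : List α) {f f' h h' : List α → ℂ}, (∀ a : List α, a.length ≤ u.length → f a = f' a) →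
      (∀ a : List α, a.length ≤ u.length → h a = h' a) → conv f h u = conv f' h' u
  | [], f, f', h, h', Hf, Hh => by simp [conv, Hf [] le_rfl, Hh [] le_rfl]
  | x :: u, f, f', h, h', Hf, Hh => by
    simp only [conv]
    rw [Hf [] (by simp), Hh (x :: u) le_rfl,
      conv_congr u (f' := fun a => f' (x :: a)) (fun a ha => Hf _ (by simp; omega))
        (fun a ha => Hh a (by simp; omega))]

theorem conv_linear_left (k : ℂ) :
    ∀ (u : List α) (f f' h : List α → ℂ),
      conv (fun a => k * f a + f' a) h u = k * conv f h u + conv f' h u
  | [], f, f', h => by simp [conv]; ring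
  | x :: u, f, f', h => by
    simp only [conv]
    rw [conv_linear_left k u (fun a => f (x :: a)) (fun a => f' (x :: a))]
    ring

theorem conv_assoc :
    ∀ (u : List α) (f h i : List α → ℂ), conv (conv f h) i u = conv f (conv h i) u
  | [], f, h, i => by simp [conv]; ring
  | x :: u, f, h, i => by
    simp only [conv]
    rw [conv_linear_left (f []) u (fun a => h (x :: a)) (conv (fun a => f (x :: a)) h),
      conv_assoc u (fun a => f (x :: a)) h i]
    ring

theorem conv_spl :
    ∀ (u : List α) (f h : List α → ℂ),
      conv f h u = f u * h [] + spl (fun a x c => f a * h (x :: c)) u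
  | [], f, h => by simp [conv, spl]
  | x :: u, f, h => by
    simp only [conv, spl]
    rw [conv_spl u]
    ring

/-- Substitute `x ↦ x N`. -/
def sub (N : List α → ℂ) : (List α → ℂ) → List α → ℂ
  | f, [] => f []
  | f, x :: u => gapExp N (fun S => f (x :: S)) u

theorem gapExp_eq_conv (N F : List α → ℂ) (u : List α) :
    gapExp N F u = conv N (sub N F) u := by
  rw [conv_spl, gapExp_eq, sub, mul_comm]
  rfl

theorem sub_congr (N : List α → ℂ) (u : List α) {f f' : List α → ℂ}
    (H : ∀ a : List α, a.length ≤ u.length → f a = f' a) : sub N f u = sub N f' u := by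
  cases u with
  | nil => exact H [] le_rfl
  | cons x u => exact gapExp_congr N u.length u _ _ le_rfl fun S hS => H _ (by simp; omega)

theorem sub_conv (N : List α → ℂ) :
    ∀ (n : ℕ) (w : List α) (f h : List α → ℂ), w.length ≤ n →
      sub N (conv f h) w = conv (sub N f) (sub N h) w := by
  intro n
  induction n with
  | zero =>
    intro w f h hw
    obtain rfl : w = [] := List.length_eq_zero_iff.1 (by omega)
    simp [sub, conv]
  | succ n ih =>
    intro w f h hw
    cases w with
    | nil => simp [sub, conv]
    | cons x u =>
      simp only [List.length_cons] at hw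
      simp only [sub, conv]
      rw [gapExp_add N u.length u (fun S => f [] * h (x :: S)) (conv (fun a => f (x :: a)) h) le_rfl,
        gapExp_smul N _ u.length u _ le_rfl, gapExp_eq_conv N (conv _ h) u,
        conv_congr u (f' := N) (h' := conv (sub N fun a => f (x :: a)) (sub N h))
          (fun _ _ => rfl) (fun a ha => ih a _ _ (by omega)),
        ← conv_assoc,
        conv_congr u (f' := fun a => gapExp N (fun S => f (x :: S)) a) (h' := sub N h)
          (fun a _ => (gapExp_eq_conv N _ a).symm) (fun _ _ => rfl)]

end

end VAgent.P087.Cum
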