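import Mathlib
import Vale.Agent.P087.Cum.Split

/-!
# P087: free cumulants of the powers of a Haar unitary

`K` is defined by inverting `M0 = gaps`; `‖K l‖ ≤ 8 ^ |l| / 4`.
-/

namespace VAgent.P087.Cum

noncomputable section

/-- Moments of powers of a Haar unitary. -/
def M0 (l : List ℤ) : ℂ := if l.sum = 0 then 1 else 0

theorem M0_nil : M0 [] = 1 := by simp [M0]

/-- Free cumulants of powers of a Haar unitary, with fuel. -/
def KF : ℕ → List ℤ → ℂ
  | 0, _ => 0
  | _ + 1, [] => 0
  | n + 1, d :: u => M0 (d :: u) -
      gapExp M0 (fun S => if S.length < u.length then KF n (d :: S) else 0) u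

/-- Free cumulants of powers of a Haar unitary. -/
def KG (l : List ℤ) : ℂ := KF l.length l

theorem KF_stable : ∀ (n m : ℕ) (l : List ℤ), l.length ≤ n → l.length ≤ m → KF n l = KF m l := by
  intro n
  induction n with
  | zero =>
    intro m l hn hm
    obtain rfl : l = [] := List.length_eq_zero_iff.1 (by omega)
    cases m <;> simp [KF]
  | succ n ih =>
    intro m l hn hm
    cases l with
    | nil => cases m <;> simp [KF]
    | cons d u =>
      simp only [List.length_cons] at hn hm
      obtain ⟨k, rfl⟩ : ∃ k, m = k + 1 := ⟨m - 1, by omega⟩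
      simp only [KF]
      congr 1
      refine gapExp_congr M0 u.length u _ _ le_rfl fun S hS => ?_
      split
      · exact ih k _ (by simp; omega) (by simp; omega)
      · rfl

theorem KG_nil : KG [] = 0 := by simp [KG, KF]

theorem KG_cons (d : ℤ) (u : List ℤ) : KG (d :: u) = M0 (d :: u) -
    gapExp M0 (fun S => if S.length < u.length then KG (d :: S) else 0) u := by
  simp only [KG, List.length_cons, KF]
  congr 1
  refine gapExp_congr M0 u.length u _ _ le_rfl fun S hS => ?_
  by_cases h : S.length < u.length
  · simp only [h, if_true]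
    exact KF_stable _ _ _ (by simp only [List.length_cons]; omega) le_rfl
  · simp [h]

theorem gapExp_KG (d : ℤ) (u : List ℤ) : gapExp M0 (fun S => KG (d :: S)) u = M0 (d :: u) := by
  have h1 : gapExp M0 (fun S => KG (d :: S)) u =
      gapExp M0 (fun S => (if S.length < u.length then KG (d :: S) else 0) +
        (if S.length < u.length then 0 else KG (d :: S))) u :=
    gapExp_congr M0 u.length u _ _ le_rfl fun S _ => by split_ifs <;> simp
  rw [h1, gapExp_add M0 u.length u _ _ le_rfl,
    gapExp_top M0 M0_nil u (fun S => if S.length < u.length then 0 else KG (d :: S))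
      (fun S hS => if_pos hS)]
  simp only [lt_irrefl, if_false, KG_cons d u]
  ring

theorem M0_cases (u : List ℤ) : M0 u = 0 ∨ u.sum = 0 := by
  by_cases h : u.sum = 0
  · exact Or.inr h
  · exact Or.inl (by simp [M0, h])

theorem gapExp_M0_charge :
    ∀ (n : ℕ) (u : List ℤ) (F : List ℤ → ℂ) (c : ℤ), u.length ≤ n →
      (∀ S : List ℤ, S.length ≤ u.length → c + S.sum ≠ 0 → F S = 0) → c + u.sum ≠ 0 →
        gapExp M0 F u = 0 := by
  intro n
  induction n with
  | zero =>
    intro u F c hu H hne
    obtain rfl : u = [] := List.length_eq_zero_iff.1 (by omega)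
    rw [gapExp_eq, H [] le_rfl hne]
    simp [spl]
  | succ n ih =>
    intro u F c hu H hne
    rw [gapExp_eq, spl_congr u (h' := fun _ _ _ => (0 : ℂ)), spl_zero, add_zero]
    · rcases M0_cases u with h | h
      · rw [h, mul_zero]
      · rw [H [] (by simp) (by simpa [h] using hne), zero_mul]
    · intro a x r e
      rcases M0_cases a with h | h
      · rw [h, zero_mul]
      · have := len_of_split e
        rw [ih r (fun S => F (x :: S)) (c + x) (by omega) (fun S hS hc =>
          H _ (by simp; omega) (by simpa [add_assoc] using hc)), mul_zero]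
        subst e
        simpa [h, add_assoc] using hne

theorem KG_charge : ∀ l : List ℤ, KG l ≠ 0 → l.sum = 0 := by
  suffices H : ∀ (n : ℕ) (l : List ℤ), l.length ≤ n → l.sum ≠ 0 → KG l = 0 from
    fun l hl => by_contra fun h => hl (H l.length l le_rfl h)
  intro n
  induction n with
  | zero =>
    intro l hn _
    obtain rfl : l = [] := List.length_eq_zero_iff.1 (by omega)
    exact KG_nil
  | succ n ih =>
    intro l hn hne
    cases l with
    | nil => exact KG_nil
    | cons d u =>
      simp only [List.length_cons] at hn
      rw [KG_cons]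
      have h0 : M0 (d :: u) = 0 := (M0_cases _).resolve_right hne
      rw [h0, gapExp_M0_charge u.length u _ d le_rfl (fun S _ hc => ?_) (by simpa using hne),
        sub_zero]
      split
      · exact ih _ (by simp; omega) (by simpa using hc)
      · rfl

/-- `1 + K`. -/
def K1 (l : List ℤ) : ℂ := (if l = [] then 1 else 0) + KG l

theorem K1_nil : K1 [] = 1 := by simp [K1, KG_nil]

theorem K1_cons (d : ℤ) (u : List ℤ) : K1 (d :: u) = KG (d :: u) := by simp [K1]

theorem sub_M0_K1 : ∀ l : List ℤ, sub M0 K1 l = M0 l
  | [] => by simp [sub, K1_nil, M0_nil]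
  | d :: u => by
    simp only [sub, K1_cons]
    exact gapExp_KG d u

/-- The inverse series of `1 + K`. -/
def NI : List ℤ → ℂ
  | u => if u = [] then 1 else -∑ q : Fin u.length, NI (u.take q) * KG (u.drop q)
  termination_by u => u.length
  decreasing_by
    simp only [List.length_take]
    omega

theorem NI_nil : NI [] = 1 := by rw [NI]; simp

theorem NI_spl (u : List ℤ) (h : u ≠ []) :
    NI u = -spl (fun a x c => NI a * KG (x :: c)) u := by
  rw [NI, if_neg h, ← sum_fin_eq_spl]
  congr 1
  refine Finset.sum_congr rfl fun q _ => ?_
  congr 2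
  exact (List.getElem_cons_drop _).symm

theorem conv_NI (u : List ℤ) : conv NI K1 u = if u = [] then 1 else 0 := by
  rw [conv_spl, K1_nil, mul_one]
  simp only [K1_cons]
  by_cases h : u = []
  · subst h; simp [spl, NI_nil]
  · rw [if_neg h, NI_spl u h, neg_add_cancel]

theorem conv_unit (u : List ℤ) : ∀ h : List ℤ → ℂ,
    conv (fun a => if a = [] then 1 else 0) h u = h u := by
  cases u with
  | nil => intro h; simp [conv]
  | cons x v =>
    intro h
    simp only [conv, if_true, one_mul]
    rw [conv_spl, spl_congr v (h' := fun _ _ _ => (0 : ℂ)) (fun a y c _ => by simp), spl_zero]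
    simp

theorem sub_sub : ∀ (n : ℕ) (l : List ℤ) (f : List ℤ → ℂ), l.length ≤ n →
    sub NI (sub M0 f) l = f l := by
  intro n
  induction n with
  | zero =>
    intro l f hl
    obtain rfl : l = [] := List.length_eq_zero_iff.1 (by omega)
    simp [sub]
  | succ n ih =>
    intro l f hl
    cases l with
    | nil => simp [sub]
    | cons x u =>
      simp only [List.length_cons] at hl
      have hM : ∀ a : List ℤ, a.length ≤ u.length → sub NI M0 a = K1 a := by
        intro a ha
        have := ih a K1 (by omega)
        rwa [sub_congr NI a (f := M0) (f' := sub M0 K1) fun b _ => (sub_M0_K1 b).symm]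
      set D : List ℤ → ℂ := fun S => f (x :: S) with hD
      have step : ∀ a : List ℤ, a.length ≤ u.length →
          sub NI (fun S => gapExp M0 D S) a = conv K1 D a := by
        intro a ha
        rw [sub_congr NI a (f' := conv M0 (sub M0 D)) (fun b _ => gapExp_eq_conv M0 D b),
          sub_conv NI a.length a _ _ le_rfl]
        exact conv_congr a (fun b hb => hM b (by omega)) (fun b hb => ih b D (by omega))
      show gapExp NI (fun S => gapExp M0 D S) u = f (x :: u)
      rw [gapExp_eq_conv, conv_congr u (fun _ _ => rfl) step, ← conv_assoc,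
        conv_congr u (f := conv NI K1) (f' := fun a => if a = [] then 1 else 0) (h := D) (h' := D)
          (fun a _ => conv_NI a) (fun _ _ => rfl), conv_unit]

theorem KG_formula (d : ℤ) (u : List ℤ) :
    KG (d :: u) = gapExp NI (fun S => M0 (d :: S)) u := by
  have h := sub_sub (d :: u).length (d :: u) K1 le_rfl
  rw [sub_congr NI (d :: u) (f := sub M0 K1) (f' := M0) fun b _ => sub_M0_K1 b, K1_cons] at h
  exact h.symm

/-- Majorant of a gap expansion with bounded coefficients. -/
def majS (a : ℕ → ℝ) : ℕ → ℝ
  | p => a p + ∑ i : Fin p, a i * majS a (p - 1 - i)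
  termination_by p => p
  decreasing_by omega

theorem majS_eq (a : ℕ → ℝ) (p : ℕ) :
    majS a p = a p + ∑ i ∈ Finset.range p, a i * majS a (p - 1 - i) := by
  rw [majS, Finset.sum_range fun i => a i * majS a (p - 1 - i)]

theorem norm_gapExp_le (a : ℕ → ℝ) (ha : ∀ i, 0 ≤ a i) :
    ∀ (n : ℕ) (u : List ℤ) (F : List ℤ → ℂ), u.length ≤ n → (∀ S, ‖F S‖ ≤ 1) →
      (∀ b : List ℤ, b.length ≤ u.length → ‖NI b‖ ≤ a b.length) →
        ‖gapExp NI F u‖ ≤ majS a u.length := by
  intro n
  induction n with
  | zero =>
    intro u F hu hF hN
    obtain rfl : u = [] := List.length_eq_zero_iff.1 (by omega)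
    rw [gapExp_eq, majS_eq]
    have := hN [] le_rfl
    simp only [spl, add_zero, List.length_nil, Finset.range_zero, Finset.sum_empty] at this ⊢
    rw [norm_mul]
    exact (mul_le_of_le_one_left (norm_nonneg _) (hF _)).trans this
  | succ n ih =>
    intro u F hu hF hN
    rw [gapExp_eq, majS_eq]
    refine (norm_add_le _ _).trans (add_le_add ?_ ?_)
    · rw [norm_mul]
      exact (mul_le_of_le_one_left (norm_nonneg _) (hF _)).trans (hN u le_rfl)
    · refine (norm_spl_le _ _).trans ((spl_le_spl u _
        (fun b _ c => a b.length * majS a c.length) fun b x c e => ?_).trans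
        (le_of_eq (spl_len u fun i j => a i * majS a j)))
      have := len_of_split e
      rw [norm_mul]
      exact mul_le_mul (hN b (by omega))
        (ih c _ (by omega) (fun S => hF _) fun b' hb' => hN b' (by omega)) (norm_nonneg _) (ha _)

mutual
/-- Majorant of `K`. -/
def majK : ℕ → ℝ
  | 0 => 0
  | p + 1 => majS (fun i => if i ≤ p then majN i else 0) p
  termination_by p => 2 * p
  decreasing_by omega

/-- Majorant of the inverse series. -/
def majN : ℕ → ℝ
  | p => if p = 0 then 1 else ∑ i : Fin p, majN i * majK (p - i)
  termination_by p => 2 * p + 1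
  decreasing_by all_goals omega
end

theorem majN_eq (p : ℕ) (hp : p ≠ 0) :
    majN p = ∑ i ∈ Finset.range p, majN i * majK (p - i) := by
  rw [majN, if_neg hp, Finset.sum_range fun i => majN i * majK (p - i)]

theorem majS_nonneg (a : ℕ → ℝ) (ha : ∀ i, 0 ≤ a i) : ∀ p, 0 ≤ majS a p := by
  intro p
  induction p using Nat.strong_induction_on with
  | _ p ih =>
    rw [majS_eq]
    exact add_nonneg (ha p) (Finset.sum_nonneg fun i hi =>
      mul_nonneg (ha i) (ih _ (by have := Finset.mem_range.1 hi; omega)))

theorem majN_majK_nonneg : ∀ p, 0 ≤ majN p ∧ 0 ≤ majK p := by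
  intro p
  induction p using Nat.strong_induction_on with
  | _ p ih =>
    have hK : 0 ≤ majK p := by
      cases p with
      | zero => rw [majK]
      | succ q =>
        rw [majK]
        refine majS_nonneg _ (fun i => ?_) q
        split
        · exact (ih i (by omega)).1
        · exact le_rfl
    refine ⟨?_, hK⟩
    by_cases hp : p = 0
    · subst hp; rw [majN]; simp
    · rw [majN_eq p hp]
      refine Finset.sum_nonneg fun i hi => mul_nonneg (ih i (Finset.mem_range.1 hi)).1 ?_
      rcases Nat.eq_zero_or_pos i with h | h
      · simpa [h] using hK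
      · exact (ih (p - i) (by omega)).2

theorem norm_le_maj : ∀ l : List ℤ, ‖KG l‖ ≤ majK l.length ∧ ‖NI l‖ ≤ majN l.length := by
  suffices H : ∀ n, ∀ l : List ℤ, l.length ≤ n → ‖KG l‖ ≤ majK l.length ∧ ‖NI l‖ ≤ majN l.length
    from fun l => H l.length l le_rfl
  intro n
  induction n with
  | zero =>
    intro l hl
    obtain rfl : l = [] := List.length_eq_zero_iff.1 (by omega)
    rw [List.length_nil, majK, majN, KG_nil, NI_nil]
    simp
  | succ n ih =>
    intro l hl
    cases l with
    | nil => exact ih [] (by simp)
    | cons x u =>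
      simp only [List.length_cons] at hl
      have hK : ‖KG (x :: u)‖ ≤ majK (x :: u).length := by
        rw [KG_formula, List.length_cons, majK]
        refine norm_gapExp_le _ (fun i => ?_) u.length u _ le_rfl (fun S => ?_) (fun b hb => ?_)
        · split
          · exact (majN_majK_nonneg i).1
          · exact le_rfl
        · simp only [M0]; split <;> simp
        · rw [if_pos hb]
          exact (ih b (by omega)).2
      refine ⟨hK, ?_⟩
      rw [NI_spl _ (by simp), norm_neg]
      refine (norm_spl_le _ _).trans ((spl_le_spl _ _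
        (fun b _ c => majN b.length * majK (c.length + 1)) fun b y c e => ?_).trans ?_)
      · have := len_of_split e
        simp only [List.length_cons] at this
        rw [norm_mul]
        refine mul_le_mul (ih b (by omega)).2 ?_ (norm_nonneg _) (majN_majK_nonneg _).1
        cases b with
        | nil =>
          simp only [List.nil_append, List.cons.injEq] at e
          obtain ⟨rfl, rfl⟩ := e
          exact hK
        | cons z b' =>
          have hlen := congrArg List.length e
          simp only [List.length_append, List.length_cons] at hlen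
          exact (ih (y :: c) (by simp; omega)).1
      · rw [spl_len (x :: u) fun i j => majN i * majK (j + 1), majN_eq _ (by simp)]
        refine le_of_eq (Finset.sum_congr rfl fun i hi => ?_)
        have := Finset.mem_range.1 hi
        congr 2
        omega

/-- A discrete convolution with shift is at most the product of the sums. -/
theorem sum_conv_le (a b : ℕ → ℝ) (ha : ∀ i, 0 ≤ a i) (hb : ∀ i, 0 ≤ b i) :
    ∀ P : ℕ, ∑ p ∈ Finset.range (P + 1), ∑ i ∈ Finset.range p, a i * b (p - 1 - i) ≤
      (∑ i ∈ Finset.range P, a i) * ∑ j ∈ Finset.range P, b j := by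
  intro P
  rw [Finset.sum_comm' (t' := Finset.range P) (s' := fun i => Finset.Ico (i + 1) (P + 1))
    (fun p i => by simp only [Finset.mem_range, Finset.mem_Ico]; omega), Finset.sum_mul]
  refine Finset.sum_le_sum fun i hi => ?_
  rw [Finset.sum_Ico_eq_sum_range, ← Finset.mul_sum]
  refine mul_le_mul_of_nonneg_left ?_ (ha i)
  refine le_trans (le_of_eq (Finset.sum_congr rfl fun j _ => ?_))
    (Finset.sum_le_sum_of_subset_of_nonneg (Finset.range_subset_range.2 (by omega))
      fun j _ _ => hb j)
  congr 1
  omega

/-- The majorants are geometric. -/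
theorem majK_le (P : ℕ) : ∑ p ∈ Finset.range (P + 1), majK p * (1 / 8 : ℝ) ^ p ≤ 1 / 4 := by
  induction P with
  | zero => rw [Finset.sum_range_one, majK]; norm_num
  | succ P ih =>
    set w : ℕ → ℝ := fun i => (1 / 8 : ℝ) ^ i with hw
    have hw0 : ∀ i, 0 ≤ w i := fun i => by positivity
    have hn : ∀ i, 0 ≤ majN i * w i := fun i => mul_nonneg (majN_majK_nonneg i).1 (hw0 i)
    have hk : ∀ i, 0 ≤ majK i * w i := fun i => mul_nonneg (majN_majK_nonneg i).2 (hw0 i)
    have hN : ∀ Q ≤ P + 1, ∑ i ∈ Finset.range Q, majN i * w i ≤ 4 / 3 := by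
      intro Q
      induction Q with
      | zero => intro _; simp; norm_num
      | succ Q ihQ =>
        intro hQ
        have hQ' := ihQ (by omega)
        have h1 : ∑ p ∈ Finset.range (Q + 1), majN p * w p ≤ 1 + ∑ p ∈ Finset.range (Q + 1),
            ∑ i ∈ Finset.range p, majN i * w i * (majK (p - 1 - i + 1) * w (p - 1 - i + 1)) := by
          rw [Finset.sum_range_succ', Finset.sum_range_succ' _ Q, Finset.sum_range_zero, add_zero,
            add_comm]
          refine add_le_add (by rw [majN]; simp [hw]) (le_of_eq (Finset.sum_congr rfl fun p _ => ?_))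
          rw [majN_eq _ (by omega), Finset.sum_mul]
          refine Finset.sum_congr rfl fun i hi => ?_
          have := Finset.mem_range.1 hi
          rw [show p + 1 - 1 - i + 1 = p + 1 - i by omega]
          have e : w (p + 1) = w i * w (p + 1 - i) := by
            rw [hw, ← pow_add]; congr 1; omega
          rw [e]; ring
        have h2 := sum_conv_le (fun i => majN i * w i) (fun j => majK (j + 1) * w (j + 1)) hn
          (fun j => hk _) Q
        have h3 : ∑ j ∈ Finset.range Q, majK (j + 1) * w (j + 1) ≤ 1 / 4 := by
          refine le_trans ?_ ih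
          have hsub : ∑ p ∈ Finset.range (Q + 1), majK p * w p ≤
              ∑ p ∈ Finset.range (P + 1), majK p * w p :=
            Finset.sum_le_sum_of_subset_of_nonneg
              (Finset.range_subset_range.2 (by omega)) fun i _ _ => hk i
          rw [Finset.sum_range_succ'] at hsub
          have := hk 0
          linarith
        have h4 : (∑ i ∈ Finset.range Q, majN i * w i) *
            ∑ j ∈ Finset.range Q, majK (j + 1) * w (j + 1) ≤ 4 / 3 * (1 / 4) :=
          mul_le_mul hQ' h3 (Finset.sum_nonneg fun j _ => hk _) (by norm_num)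
        linarith
    set a : ℕ → ℝ := fun i => if i ≤ P then majN i else 0 with ha
    have ha0 : ∀ i, 0 ≤ a i := fun i => by
      simp only [ha]; split
      · exact (majN_majK_nonneg i).1
      · exact le_rfl
    have hA : ∀ Q ≤ P + 1, ∑ i ∈ Finset.range Q, a i * w i ≤ 4 / 3 := by
      intro Q hQ
      refine le_trans (le_of_eq (Finset.sum_congr rfl fun i hi => ?_)) (hN Q hQ)
      rw [ha]
      simp only
      rw [if_pos (by have := Finset.mem_range.1 hi; omega)]
    have hS : ∀ Q ≤ P + 1, ∑ p ∈ Finset.range Q, majS a p * w p ≤ 8 / 5 := by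
      intro Q
      induction Q with
      | zero => intro _; simp; norm_num
      | succ Q ihQ =>
        intro hQ
        have hQ' := ihQ (by omega)
        have h1 : ∑ p ∈ Finset.range (Q + 1), majS a p * w p =
            ∑ p ∈ Finset.range (Q + 1), a p * w p + 1 / 8 * ∑ p ∈ Finset.range (Q + 1),
              ∑ i ∈ Finset.range p, a i * w i * (majS a (p - 1 - i) * w (p - 1 - i)) := by
          rw [Finset.mul_sum, ← Finset.sum_add_distrib]
          refine Finset.sum_congr rfl fun p _ => ?_
          rw [majS_eq, add_mul, Finset.sum_mul, Finset.mul_sum]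
          congr 1
          refine Finset.sum_congr rfl fun i hi => ?_
          have := Finset.mem_range.1 hi
          have e : w p = 1 / 8 * (w i * w (p - 1 - i)) := by
            rw [hw, ← pow_add, ← pow_succ']; congr 1; omega
          rw [e]; ring
        have h2 := sum_conv_le (fun i => a i * w i) (fun j => majS a j * w j)
          (fun i => mul_nonneg (ha0 i) (hw0 i))
          (fun j => mul_nonneg (majS_nonneg a ha0 j) (hw0 j)) Q
        have h4 : (∑ i ∈ Finset.range Q, a i * w i) * ∑ j ∈ Finset.range Q, majS a j * w j ≤
            4 / 3 * (8 / 5) :=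
          mul_le_mul (hA Q (by omega)) hQ'
            (Finset.sum_nonneg fun j _ => mul_nonneg (majS_nonneg a ha0 j) (hw0 j)) (by norm_num)
        have := hA (Q + 1) hQ
        linarith
    rw [Finset.sum_range_succ', majK, zero_mul, add_zero]
    have hterm : ∀ p ∈ Finset.range (P + 1),
        majK (p + 1) * w (p + 1) = 1 / 8 * (majS a p * w p) := by
      intro p hp
      have := Finset.mem_range.1 hp
      rw [majK, show w (p + 1) = 1 / 8 * w p by rw [hw]; ring]
      have : majS (fun i => if i ≤ p then majN i else 0) p = majS a p := by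
        clear hA hS hN ih
        have key : ∀ q ≤ p, majS (fun i => if i ≤ p then majN i else 0) q = majS a q := by
          intro q
          induction q using Nat.strong_induction_on with
          | _ q ihq =>
            intro hq
            rw [majS_eq, majS_eq a q]
            have hp' : p ≤ P := by omega
            simp only [ha, if_pos hq, if_pos (hq.trans hp')]
            congr 1
            refine Finset.sum_congr rfl fun i hi => ?_
            have := Finset.mem_range.1 hi
            rw [ihq _ (by omega) (by omega), if_pos (show i ≤ p by omega),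
              if_pos (show i ≤ P by omega)]
        exact key p le_rfl
      rw [this]; ring
    rw [Finset.sum_congr rfl hterm, ← Finset.mul_sum]
    have := hS (P + 1) le_rfl
    linarith

theorem norm_KG_le (l : List ℤ) : ‖KG l‖ ≤ 8 ^ l.length / 4 := by
  refine (norm_le_maj l).1.trans ?_
  have h : majK l.length * (1 / 8 : ℝ) ^ l.length ≤ 1 / 4 := by
    refine le_trans ?_ (majK_le l.length)
    exact Finset.single_le_sum
      (f := fun p => majK p * (1 / 8 : ℝ) ^ p)
      (fun i _ => mul_nonneg (majN_majK_nonneg i).2 (by positivity))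
      (Finset.self_mem_range_succ _)
  have h8 : (0 : ℝ) < 8 ^ l.length := by positivity
  rw [one_div, inv_pow, ← div_eq_mul_inv, div_le_iff₀ h8] at h
  linarith

end

end VAgent.P087.Cum
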