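import Mathlib
import Vale.Agent.P087.Cum.Split

/-!
# P087: weighted sums over all words of bounded length
-/

namespace VAgent.P087.Cum

noncomputable section

variable {β : Type*} [Fintype β]

/-- `∑` over words of length at most `P` of the weight times `F`. -/
def wsum (wt : β → ℝ) : ℕ → (List β → ℝ) → ℝ
  | 0, F => F []
  | P + 1, F => F [] + ∑ x, wt x * wsum wt P fun w => F (x :: w)

variable {wt : β → ℝ} (hwt : ∀ x, 0 ≤ wt x)

include hwt in
theorem wsum_mono : ∀ (P : ℕ) (F G : List β → ℝ), (∀ w, F w ≤ G w) → wsum wt P F ≤ wsum wt P G := by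
  intro P
  induction P with
  | zero => intro F G h; exact h []
  | succ P ih =>
    intro F G h
    exact add_le_add (h []) (Finset.sum_le_sum fun x _ =>
      mul_le_mul_of_nonneg_left (ih _ _ fun w => h _) (hwt x))

include hwt in
theorem wsum_nonneg (P : ℕ) : ∀ F : List β → ℝ, (∀ w, 0 ≤ F w) → 0 ≤ wsum wt P F := by
  induction P with
  | zero => intro F h; exact h []
  | succ P ih =>
    intro F h
    exact add_nonneg (h []) (Finset.sum_nonneg fun x _ => mul_nonneg (hwt x) (ih _ fun w => h _))

include hwt in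
theorem wsum_le_succ : ∀ (P : ℕ) (F : List β → ℝ), (∀ w, 0 ≤ F w) →
    wsum wt P F ≤ wsum wt (P + 1) F := by
  intro P
  induction P with
  | zero =>
    intro F h
    exact le_add_of_nonneg_right (Finset.sum_nonneg fun x _ => mul_nonneg (hwt x) (h _))
  | succ P ih =>
    intro F h
    exact add_le_add le_rfl (Finset.sum_le_sum fun x _ =>
      mul_le_mul_of_nonneg_left (ih _ fun w => h _) (hwt x))

theorem wsum_add : ∀ (P : ℕ) (F G : List β → ℝ),
    wsum wt P (fun w => F w + G w) = wsum wt P F + wsum wt P G := by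
  intro P
  induction P with
  | zero => intro F G; rfl
  | succ P ih =>
    intro F G
    simp only [wsum, ih, mul_add, Finset.sum_add_distrib]
    ring

theorem wsum_smul (k : ℝ) : ∀ (P : ℕ) (F : List β → ℝ),
    wsum wt P (fun w => k * F w) = k * wsum wt P F := by
  intro P
  induction P with
  | zero => intro F; rfl
  | succ P ih =>
    intro F
    simp only [wsum, ih, mul_add, Finset.mul_sum]
    congr 1
    exact Finset.sum_congr rfl fun x _ => by ring

theorem wsum_sum {γ : Type*} (s : Finset γ) : ∀ (P : ℕ) (F : γ → List β → ℝ),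
    wsum wt P (fun w => ∑ c ∈ s, F c w) = ∑ c ∈ s, wsum wt P (F c) := by
  intro P
  induction P with
  | zero => intro F; rfl
  | succ P ih =>
    intro F
    simp only [wsum, ih, Finset.mul_sum, Finset.sum_add_distrib]
    congr 1
    exact Finset.sum_comm

include hwt in
theorem wsum_split_le : ∀ (P : ℕ) (φ ψ : β → List β → ℝ),
    (∀ x w, 0 ≤ φ x w) → (∀ x w, 0 ≤ ψ x w) →
    wsum wt P (fun w => spl (fun a x c => φ x a * ψ x c) w) ≤
      ∑ x, wt x * (wsum wt P (φ x) * wsum wt P (ψ x)) := by
  intro P
  induction P with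
  | zero =>
    intro φ ψ hφ hψ
    simp only [wsum, spl]
    exact Finset.sum_nonneg fun x _ => mul_nonneg (hwt x) (mul_nonneg (hφ x _) (hψ x _))
  | succ P ih =>
    intro φ ψ hφ hψ
    simp only [wsum, spl, zero_add, wsum_add, wsum_smul, mul_add, Finset.sum_add_distrib]
    have h2 : ∑ x, wt x * wsum wt P (fun w => spl (fun a y c => φ y (x :: a) * ψ y c) w) ≤
        ∑ y, wt y * ((∑ x, wt x * wsum wt P (fun a => φ y (x :: a))) * wsum wt P (ψ y)) := by
      refine (Finset.sum_le_sum fun x _ => mul_le_mul_of_nonneg_left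
        (ih (fun y a => φ y (x :: a)) ψ (fun y a => hφ _ _) hψ) (hwt x)).trans (le_of_eq ?_)
      simp only [Finset.mul_sum, Finset.sum_mul]
      rw [Finset.sum_comm]
      exact Finset.sum_congr rfl fun y _ => Finset.sum_congr rfl fun x _ => by ring
    refine (add_le_add le_rfl h2).trans ?_
    rw [← Finset.sum_add_distrib, ← Finset.sum_add_distrib]
    refine Finset.sum_le_sum fun y _ => ?_
    have h3 : wsum wt P (ψ y) ≤ wsum wt (P + 1) (ψ y) := wsum_le_succ hwt P _ (hψ y)
    have h4 : 0 ≤ φ y [] + ∑ x, wt x * wsum wt P (fun a => φ y (x :: a)) :=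
      add_nonneg (hφ y _) (Finset.sum_nonneg fun x _ =>
        mul_nonneg (hwt x) (wsum_nonneg hwt P _ fun a => hφ _ _))
    have := mul_le_mul_of_nonneg_left h3 (mul_nonneg (hwt y) h4)
    simp only [wsum] at this
    calc _ = wt y * (φ y [] + ∑ x, wt x * wsum wt P (fun a => φ y (x :: a))) * wsum wt P (ψ y) := by
          ring
      _ ≤ _ := this
      _ = _ := by ring

theorem wsum_eq : ∀ (P : ℕ) (F : List β → ℝ),
    wsum wt P F = ∑ q ∈ Finset.range (P + 1), ∑ w : Fin q → β,
      (∏ i, wt (w i)) * F (List.ofFn w) := by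
  intro P
  induction P with
  | zero => intro F; simp [wsum]
  | succ P ih =>
    intro F
    simp only [wsum, ih]
    rw [Finset.sum_range_succ' _ (P + 1), add_comm]
    congr 1
    · simp only [Finset.mul_sum]
      rw [Finset.sum_comm]
      refine Finset.sum_congr rfl fun q _ => ?_
      rw [← (Fin.consEquiv fun _ : Fin (q + 1) => β).sum_comp, Fintype.sum_prod_type]
      refine Finset.sum_congr rfl fun x _ => Finset.sum_congr rfl fun w _ => ?_
      simp only [Fin.consEquiv_apply, Fin.prod_univ_succ, Fin.cons_zero, Fin.cons_succ,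
        List.ofFn_succ]
      ring
    · simp

end

end VAgent.P087.Cum
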